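import Mathlib
import Crest.Prelude.Def_ClassifyingComplex
import Crest.Prelude.Def_WordHyperbolic
import Crest.Prelude.Def_GroupRingDet

/-!
Interface for rows 177, 184, 199: definitions and the statements of the independent modules.
-/

set_option autoImplicit false

namespace Crest.Agent.R177

open Equiv Finset
open scoped Classical

/-! ## 1. Permutation pairs of genus zero -/

/-- number of classes of the equivalence relation generated by `r` -/
noncomputable def ncc {X : Type} (r : X → X → Prop) : ℕ := Nat.card (Quot r)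

/-- number of cycles (fixed points included) -/
noncomputable def cyc {X : Type} (σ : Perm X) : ℕ := ncc (fun x y => σ x = y)

/-- one step along `σ` or `τ` -/
def Step {X : Type} (σ τ : Perm X) (x y : X) : Prop := σ x = y ∨ τ x = y

/-- number of orbits of the group generated by two permutations -/
noncomputable def orb {X : Type} (σ τ : Perm X) : ℕ := ncc (Step σ τ)

/-- Euler relation `V - E + F ≥ 2 * components` (faces `φ`, edges `α`, vertices `φ * α`). -/
def Planar {X : Type} (φ α : Perm X) : Prop :=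
  Nat.card X + 2 * orb φ α ≤ cyc φ + cyc α + cyc (φ * α)

/-- elementary moves keep planarity -/
def MoveStmt : Prop :=
  (∀ (X : Type) [Finite X] (φ α : Perm X) (a b : X), Planar φ α → φ.SameCycle a b →
      Planar (φ * swap a b) α) ∧
  (∀ (X : Type) [Finite X] (φ α : Perm X) (a b : X), Planar φ α → α.SameCycle a b →
      Planar (φ * swap a b) (swap a b * α)) ∧
  (∀ (X : Type) [Finite X] (φ α : Perm X) (a b : X), Planar φ α → α.SameCycle a b →
      Planar φ (swap a b * α)) ∧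
  (∀ (X : Type) [Finite X] (φ α : Perm X) (a b : X), Planar φ α →
      ¬ Relation.EqvGen (Step φ α) a b → Planar (φ * swap a b) α) ∧
  (∀ (X Y : Type) [Finite X] [Finite Y] (φ α : Perm X) (φ' α' : Perm Y), Planar φ α →
      Planar φ' α' → Planar (Perm.sumCongr φ φ') (Perm.sumCongr α α')) ∧
  (∀ (X Y : Type) [Finite X] (e : X ≃ Y) (φ α : Perm X), Planar φ α →
      Planar (e.permCongr φ) (e.permCongr α)) ∧
  (∀ (X : Type) [Finite X] (σ : Perm X), Planar σ σ⁻¹) ∧
  (∀ (X : Type) [Finite X] (σ : Perm X), Planar (Perm.sumCongr σ σ⁻¹) (Equiv.sumComm X X)) ∧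
  (∀ (X : Type) [Finite X] (φ α : Perm X) (Z : Set X), Planar φ α → (∀ x ∈ Z, α x = x) →
      ∃ φ' : Perm X, Planar φ' α ∧ (∀ x ∈ Z, φ' x = x) ∧
        (∀ x, x ∉ Z → φ x ∉ Z → φ' x = φ x) ∧
        (∀ x y, x ∉ Z → y ∉ Z → (φ.SameCycle x y ↔ φ'.SameCycle x y)))

/-- Euler inequality for the darts at vertices of degree at least three -/
def EulerStmt : Prop :=
  ∀ (X : Type) [Fintype X] (φ α : Perm X), Planar φ α → (∀ x, α (α x) = x) →
    (∀ x, α x = x → φ x = x) →
    #{x | α x ≠ x ∧ φ (α x) ≠ x ∧ φ (α (φ (α x))) ≠ x} + 6 * #{x | α x = x} +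
        (if ∃ x, α x ≠ x then 12 else 0) ≤
      6 * cyc φ + 3 * #{x | α x ≠ x ∧ φ (α x) = x}

/-- the dual graph of a planar pair has no `K₈` minor -/
def MinorStmt : Prop :=
  ∀ (X : Type) [Finite X] (φ α : Perm X) (col : X → Option (Fin 8)), Planar φ α →
    (∀ x, α (α x) = x) → (∀ x, col (φ x) = col x) →
    (∀ x y i, col x = some i → col y = some i →
      Relation.ReflTransGen (fun a b => φ a = b ∨ (α a = b ∧ col a = col b)) x y) →
    (∀ i j, i ≠ j → ∃ x, col x = some i ∧ col (α x) = some j) → False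

/-- cutting long faces into segments; `S` is the invariant set of darts that matter, `C₀` the
forced cuts. -/
def SegStmt : Prop :=
  ∀ (X : Type) [Fintype X] (φ α : Perm X) (S C₀ : Finset X) (m : ℕ), 1 ≤ m → Planar φ α →
    (∀ x, x ∉ S → φ x = x) → C₀ ⊆ S →
    ∃ (φ' : Perm X) (C : Finset X), Planar φ' α ∧ (∀ x, x ∉ S → φ' x = x) ∧ C₀ ⊆ C ∧ C ⊆ S ∧
      (∀ x, x ∉ C → φ' x = φ x) ∧ m * #(C \ C₀) ≤ #S ∧
      (∀ x, #{y | φ'.SameCycle x y} ≤ 2 * m) ∧
      (∀ x ∈ C \ C₀, m ≤ #{y | φ'.SameCycle x y}) ∧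
      (#S ≤ 2 * m → φ' = φ ∧ C = C₀)

/-- two counting facts on cycles -/
def CycStmt : Prop :=
  (∀ (X : Type) [Fintype X] (φ : Perm X) (K : ℕ), cyc φ ≤ K →
      ∃ e : X ≃ Fin (Fintype.card X), #{x | (e (φ x) : ℕ) ≠ e x + 1} ≤ K) ∧
  (∀ (X : Type) [Fintype X] (φ : Perm X) (Z T : Finset X) (g : ℕ),
      (∀ x, (∃ z ∈ Z, φ.SameCycle x z) ∨ (g ≤ #{y ∈ T | φ.SameCycle x y})) →
      g * cyc φ ≤ g * #Z + #T)

/-! ## 2. Separators -/

def HasKMinor {V : Type} (G : SimpleGraph V) (h : ℕ) : Prop :=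
  ∃ B : Fin h → Set V, (∀ i, (B i).Nonempty) ∧
    (∀ i, ∀ a ∈ B i, ∀ b ∈ B i,
      Relation.ReflTransGen (fun x y => x ∈ B i ∧ y ∈ B i ∧ G.Adj x y) a b) ∧
    (∀ i j, i ≠ j → Disjoint (B i) (B j)) ∧
    (∀ i j, i ≠ j → ∃ a ∈ B i, ∃ b ∈ B j, G.Adj a b)

/-- graphs without a `K_h` minor are hyperfinite -/
def SepStmt : Prop :=
  ∀ h m : ℕ, ∃ K : ℕ, ∀ (V : Type) [Fintype V] (G : SimpleGraph V), ¬ HasKMinor G h →
    ∃ (S : Finset V) (part : V → ℕ), m * #S ≤ Fintype.card V ∧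
      (∀ a b, a ∉ S → b ∉ S → G.Adj a b → part a = part b) ∧
      ∀ k, #{a | a ∉ S ∧ part a = k} ≤ K

/-! ## 3. Hyperbolicity from a homological isoperimetric inequality -/

/-- twice the discrete integral of `f dh` along the path from `g` with steps `l` -/
def area {G : Type} [Group G] (f h : G → ℤ) : G → List G → ℤ
  | _, [] => 0
  | g, x :: l => (f g + f (g * x)) * (h (g * x) - h g) + area f h (g * x) l

/-- realises the unfolding lemmas of `area` once, in this common import -/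
theorem area_eqs : True := by
  have := @area.eq_def
  have := @area.eq_1
  have := @area.eq_2
  trivial

def Lip {G : Type} [Group G] (S : Finset G) (f : G → ℤ) : Prop :=
  ∀ g, ∀ s ∈ S, |f (g * s) - f g| ≤ 1

def Iso {G : Type} [Group G] (S : Finset G) (C : ℕ) : Prop :=
  ∀ l : List G, (∀ x ∈ l, x ∈ S ∨ x⁻¹ ∈ S) → l.prod = 1 →
    ∀ (g : G) (f h : G → ℤ), Lip S f → Lip S h → |area f h g l| ≤ C * l.length

def HypStmt : Prop :=
  ∀ (G : Type) [Group G] (S : Finset G) (C : ℕ), Subgroup.closure (S : Set G) = ⊤ → Iso S C →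
    Crest.GroupTheory.IsHyperbolicGroup G

/-! ## 4. Triangular presentations -/

/-- generators `A`, relators `a ρ * b ρ = c ρ` for `ρ : R` -/
structure Tri (A R : Type) where
  a : R → A
  b : R → A
  c : R → A

namespace Tri
variable {A R : Type} (T : Tri A R)

def rel (ρ : R) : FreeGroup A :=
  FreeGroup.of (T.a ρ) * FreeGroup.of (T.b ρ) * (FreeGroup.of (T.c ρ))⁻¹

abbrev G : Type := PresentedGroup (Set.range T.rel)

def π : FreeGroup A →* T.G := PresentedGroup.mk (Set.range T.rel)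

/-- the generator `s` in the group -/
def x (s : A) : T.G := T.π (FreeGroup.of s)

/-- boundary of 2-chains of the universal cover -/
noncomputable def d2 : (T.G × R →₀ ℤ) →+ (T.G × A →₀ ℤ) :=
  Finsupp.liftAddHom fun p => zmultiplesHom _
    (Finsupp.single (p.1, T.a p.2) 1 + Finsupp.single (p.1 * T.x (T.a p.2), T.b p.2) 1 -
      Finsupp.single (p.1, T.c p.2) 1)

/-- formal products of conjugates of relators: (value in the free group, 2-chain) -/
noncomputable def D : Subgroup (FreeGroup A × Multiplicative (T.G × R →₀ ℤ)) :=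
  Subgroup.closure {p | ∃ (u : FreeGroup A) (ρ : R),
    p = (u * T.rel ρ * u⁻¹, Multiplicative.ofAdd (Finsupp.single (T.π u, ρ) 1))}

/-- `ℓ¹` norm of a chain -/
noncomputable def mass {ι : Type} (c : ι →₀ ℤ) : ℕ := ∑ i ∈ c.support, (c i).natAbs

def Fill (C : ℕ) : Prop :=
  ∀ (w : List (A × Bool)) (c : T.G × R →₀ ℤ),
    (FreeGroup.mk w, Multiplicative.ofAdd c) ∈ T.D → mass c ≤ C * w.length

/-- every 2-cochain is a coboundary -/
def Split : Prop :=
  ∀ (K : Type) [AddCommGroup K] (ω : T.G × R → K), ∃ k : T.G × A → K, ∀ g ρ,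
    k (g, T.a ρ) + k (g * T.x (T.a ρ), T.b ρ) - k (g, T.c ρ) = ω (g, ρ)

end Tri

def AlgStmt : Prop :=
  (∀ (A R : Type) [Fintype A] (T : Tri A R) (C : ℕ), T.Fill C →
      Function.Injective T.d2 ∧ Iso (univ.image T.x) (12 * C) ∧
        Subgroup.closure ((univ.image T.x : Finset T.G) : Set T.G) = ⊤) ∧
  (∀ (A R : Type) (T : Tri A R), Function.Injective T.d2 →
      T.Split ∧ ∀ g : T.G, IsOfFinOrder g → g = 1) ∧
  (∀ (G : Type) [Group G] (K : Type) [Field K] [Finite K], Group.ResiduallyFinite G →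
      ∀ a b c : MonoidAlgebra K G, a * b = 1 → a * c = 0 → c = 0)

def TopStmt : Prop :=
  ∀ (A R : Type) [Finite A] [Finite R] (T : Tri A R), T.Split →
    Crest.Topology.HasFiniteClassifyingComplex T.G 2

/-! ## 5. Folded labelled graphs -/

structure FGraph (P : Type) where
  V : Type
  E : Type
  src : E → V
  tgt : E → V
  lab : E → P
  inj_src : ∀ e e', src e = src e' → lab e = lab e' → e = e'
  inj_tgt : ∀ e e', tgt e = tgt e' → lab e = lab e' → e = e'

namespace FGraph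
variable {P : Type} (L : FGraph P)

/-- darts: `(e, true)` runs from `src e` to `tgt e`, `(e, false)` backwards -/
abbrev Dart : Type := L.E × Bool

def tail (d : L.Dart) : L.V := if d.2 then L.src d.1 else L.tgt d.1
def head (d : L.Dart) : L.V := if d.2 then L.tgt d.1 else L.src d.1
def rev (d : L.Dart) : L.Dart := (d.1, !d.2)
def label (d : L.Dart) : P × Bool := (L.lab d.1, d.2)

/-- `d'` continues `d` without backtracking -/
def Nx (d d' : L.Dart) : Prop := L.head d = L.tail d' ∧ d' ≠ L.rev d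

/-- no nonempty reduced closed path of length less than `g` -/
def Girth (g : ℕ) : Prop :=
  ∀ (n : ℕ) (d : ℕ → L.Dart), (∀ i, i < n → L.Nx (d i) (d (i + 1))) →
    L.head (d n) = L.tail (d 0) → g ≤ n + 1

/-- the cone over `L`, labelled by the generators `P ⊕ V` -/
def cone : FGraph (P ⊕ L.V) where
  V := Option L.V
  E := L.E ⊕ L.V
  src := Sum.elim (fun e => some (L.src e)) (fun _ => none)
  tgt := Sum.elim (fun e => some (L.tgt e)) some
  lab := Sum.map L.lab id
  inj_src := by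
    rintro (e | v) (e' | v') h1 h2 <;> simp at h1 h2 ⊢
    · exact L.inj_src _ _ h1 h2
    · exact h2
  inj_tgt := by
    rintro (e | v) (e' | v') h1 h2 <;> simp at h1 h2 ⊢
    · exact L.inj_tgt _ _ h1 h2
    · exact h2

/-- the presentation `src e * lab e = tgt e` -/
def tri : Tri (P ⊕ L.V) L.E where
  a e := Sum.inr (L.src e)
  b e := Sum.inl (L.lab e)
  c e := Sum.inr (L.tgt e)

/-- reduced planar diagram with outer boundary word `w` -/
structure RDiag (w : List ((P ⊕ L.V) × Bool)) (X : Type) where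
  φ : Perm X
  α : Perm X
  inv : ∀ x, α (α x) = x
  planar : Planar φ α
  dead : ∀ x, α x = x → φ x = x
  o : List X
  o_nodup : o.Nodup
  lab : X → (P ⊕ L.V) × Bool
  o_lab : o.map lab = w
  o_cyc : ∀ (i : ℕ) (h : i < o.length),
    φ o[i] = o[(i + 1) % o.length]'(Nat.mod_lt _ (Nat.zero_lt_of_lt h))
  o_live : ∀ x ∈ o, α x ≠ x
  lab_α : ∀ x, α x ≠ x → lab (α x) = ((lab x).1, !(lab x).2)
  lift : X → L.cone.Dart
  lift_lab : ∀ x, x ∉ o → α x ≠ x → L.cone.label (lift x) = lab x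
  walk : ∀ x, x ∉ o → α x ≠ x → L.cone.Nx (lift x) (lift (φ x))
  red : ∀ x, x ∉ o → α x ≠ x → α x ∉ o → lift (α x) ≠ L.cone.rev (lift x)

/-- a bounded family of reduced paths of `L` with a partial gluing -/
structure Cfg (X : Type) where
  φ : Perm X
  α : Perm X
  inv : ∀ x, α (α x) = x
  cut : Finset X
  lift : X → L.Dart
  walk : ∀ x, x ∉ cut → L.Nx (lift x) (lift (φ x))
  pair : ∀ x, α x ≠ x → L.lab (lift (α x)).1 = L.lab (lift x).1 ∧
    (lift (α x)).2 = !(lift x).2 ∧ (lift (α x)).1 ≠ (lift x).1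

/-- `x` is not a break of the gluing pattern -/
def Cfg.Par {L : FGraph P} {X : Type} (c : L.Cfg X) (x : X) : Prop :=
  (c.α x = x ∧ c.α (c.φ x) = c.φ x) ∨
    (c.α x ≠ x ∧ c.α (c.φ x) ≠ c.φ x ∧ c.φ (c.α (c.φ x)) = c.α x)

/-- the local isoperimetric inequality -/
def Local (γ : L.V) (C K B M m g : ℕ) : Prop :=
  ∀ (X : Type) [Fintype X] (c : L.Cfg X), cyc c.φ ≤ K → Fintype.card X ≤ M * g →
    #{x | ¬ c.Par x} ≤ B → #c.cut ≤ B →
    m * Fintype.card X ≤ m * C * #{x | c.α x = x} +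
      m * C * g * (#c.cut - if ∃ x, L.tail (c.lift x) = γ then 1 else 0) + g

/-- the vertex `γ` is alone in its fibre -/
def Alone (γ : L.V) : Prop := ∀ v, L.tri.x (Sum.inr v) = L.tri.x (Sum.inr γ) → v = γ

end FGraph

/-- van Kampen lemma with reduction -/
def DiagStmt : Prop :=
  ∀ (P : Type) (L : FGraph P), Nonempty L.V →
    ∀ (w : List ((P ⊕ L.V) × Bool)) (c : L.tri.G × L.E →₀ ℤ),
    (FreeGroup.mk w, Multiplicative.ofAdd c) ∈ L.tri.D →
    ∃ (X : Type) (_ : Fintype X) (D : L.RDiag w X),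
      Tri.mass c ≤ #{x | x ∉ D.o ∧ D.α x ≠ x ∧ (D.lab x).1.isLeft}

/-- local to global -/
def GlobalStmt : Prop :=
  ∀ C : ℕ, ∃ K B M m g₀ : ℕ, ∀ g, g₀ ≤ g → ∀ (P : Type) (L : FGraph P) (γ : L.V),
    L.Girth g → L.Local γ C K B M m g → (∃ C', L.tri.Fill C') ∧ L.Alone γ

/-! ## 6. Random graphs with prescribed types -/

/-- vertices `U`, `Y` with sets of coloured labels; `pr` forgets the colour -/
structure Des {P Λ : Type} (pr : Λ → P) where
  U : Type
  Y : Type
  [fU : Fintype U]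
  [fY : Fintype Y]
  SU : U → Finset Λ
  SY : Y → Finset Λ
  injU : ∀ w, Set.InjOn pr (SU w)
  injY : ∀ y, Set.InjOn pr (SY y)

attribute [instance] Des.fU Des.fY

namespace Des
variable {P Λ : Type} {pr : Λ → P} (D : Des pr)

abbrev E : Type := {p : D.U × Λ // p.2 ∈ D.SU p.1}

/-- a matching of the darts at `U` with the darts at `Y` that keeps coloured labels -/
def IsConf (β : D.E → D.Y) : Prop :=
  (∀ e, e.1.2 ∈ D.SY (β e)) ∧ (∀ e e', β e = β e' → e.1.2 = e'.1.2 → e = e') ∧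
    ∀ y, ∀ l ∈ D.SY y, ∃ e, β e = y ∧ e.1.2 = l

abbrev Conf : Type := {β : D.E → D.Y // D.IsConf β}

def graph (β : D.Conf) : FGraph P where
  V := D.U ⊕ D.Y
  E := D.E
  src e := Sum.inl e.1.1
  tgt e := Sum.inr (β.1 e)
  lab e := pr e.1.2
  inj_src := by
    rintro ⟨⟨w, l⟩, h⟩ ⟨⟨w', l'⟩, h'⟩ h1 h2
    simp only [Sum.inl.injEq] at h1
    subst h1
    have := D.injU w h h' h2
    simp only at this
    subst this
    rfl
  inj_tgt := by
    intro e e' h1 h2
    simp only [Sum.inr.injEq] at h1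
    have h3 := β.2.1 e
    have h4 := β.2.1 e'
    rw [← h1] at h4
    exact β.2.2.1 e e' h1 (D.injY _ h3 h4 h2)

/-- size conditions -/
structure Good (r c : ℕ) (St : Finset (P × P)) (n : ℕ) : Prop where
  bal : ∀ l, #{w | l ∈ D.SU w} = #{y | l ∈ D.SY y}
  lo : ∀ l, n ≤ #{w | l ∈ D.SU w}
  hi : ∀ l, #{w | l ∈ D.SU w} ≤ n + c
  two : ∀ l s, s ≠ pr l → r * #{w | l ∈ D.SU w ∧ ∃ l' ∈ D.SU w, pr l' = s} ≤ n + c
  st : ∀ y, ∀ l ∈ D.SY y, ∀ l' ∈ D.SY y, l ≠ l' → (pr l, pr l') ∈ St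

/-- the algebraic property: a one-sided unit that is a zero divisor -/
def Alg (K : Type) [Field K] (γ : D.U) : Prop :=
  ∀ (β : D.Conf) (G : Type) [Group G] (φ : D.U ⊕ D.Y → G) (x : P → G),
    (∀ e : D.E, φ (Sum.inl e.1.1) * x (pr e.1.2) = φ (Sum.inr (β.1 e))) →
    (∀ v, φ v = φ (Sum.inl γ) → v = Sum.inl γ) →
    ∃ a b c : MonoidAlgebra K G, a * b = 1 ∧ a * c = 0 ∧ c ≠ 0

end Des

/-- switching: graphs of large girth exist and contain given edges with small probability -/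
def SwitchStmt : Prop :=
  ∀ (P Λ : Type) [Fintype P] [Fintype Λ] (pr : Λ → P) (D : Des pr) (n g : ℕ),
    (∀ l, #{w | l ∈ D.SU w} = #{y | l ∈ D.SY y}) → (∀ l, n ≤ #{w | l ∈ D.SU w}) →
    4 * (Fintype.card P + 1) ^ (g + 2) < n →
    (∃ β : D.Conf, (D.graph β).Girth g) ∧
    ∀ (S : Finset D.E) (t : D.E → D.Y) (A : ℕ), 4 * (Fintype.card P + 1) ^ (g + 2) + #S ≤ A →
      Nat.card {β : D.Conf // (D.graph β).Girth g ∧ ∀ e ∈ S, β.1 e = t e} * (n - A) ^ #S ≤
        Nat.card {β : D.Conf // (D.graph β).Girth g}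

/-- first position with the same value -/
noncomputable def rep {V : Type} (z : ℕ → V) (i : ℕ) : ℕ := sInf {j | z j = z i}

/-- overlaps of boundedly many short paths in a graph of large girth have bounded complexity -/
def RepStmt : Prop :=
  ∀ B M : ℕ, ∃ J : ℕ, ∀ g, 8 ≤ g → ∀ (P : Type) (L : FGraph P), L.Girth g →
    ∀ (T : ℕ) (d : ℕ → L.Dart) (W : Finset ℕ), T ≤ M * g → #W ≤ B →
      (∀ i, i + 1 < T → i ∉ W → L.Nx (d i) (d (i + 1))) →
      (∀ i, #{j ∈ range T | L.tail (d j) = L.tail (d i)} ≤ J) ∧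
      #{i ∈ range T | ¬ (1 ≤ i ∧ i + 1 < T ∧ 1 ≤ rep (fun j => L.tail (d j)) i ∧
        ({rep (fun j => L.tail (d j)) (i - 1), rep (fun j => L.tail (d j)) (i + 1)} : Finset ℕ) =
          {rep (fun j => L.tail (d j)) i - 1, rep (fun j => L.tail (d j)) i + 1})} ≤ J

/-- the first moment argument -/
def LocalStmt : Prop :=
  ∀ (P Λ : Type) [Fintype P] [Fintype Λ] (pr : Λ → P) (r c d : ℕ) (St : Finset (P × P)),
    #St < r ^ 2 → 2 ≤ r → 1 ≤ d →
    ∃ C : ℕ, ∀ K B M m g₀ : ℕ, ∃ g N : ℕ, g₀ ≤ g ∧ 1 ≤ N ∧ ∀ (D : Des pr) (γ : D.U),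
      D.Good r c St (d * N) →
      ∃ β : D.Conf, (D.graph β).Girth g ∧ (D.graph β).Local (Sum.inl γ) C K B M m g

/-- existence of the designs over the field `K` -/
def DesStmt (K : Type) [Field K] : Prop :=
  ∃ (P Λ : Type) (_ : Fintype P) (_ : Fintype Λ) (pr : Λ → P) (r c d : ℕ) (St : Finset (P × P)),
    #St < r ^ 2 ∧ 2 ≤ r ∧ 1 ≤ d ∧
    ∀ N, 1 ≤ N → ∃ (D : Des pr) (γ : D.U), D.Good r c St (d * N) ∧ D.Alg K γ

def Des2Stmt : Prop := DesStmt (ZMod 2)

def DesOddStmt : Prop := ∀ (p : ℕ) [Fact p.Prime], 5 < p → DesStmt (GaloisField p 4)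

/-! ## 7. The determinant -/

/-- the statement S0276 -/
def DetGoal : Prop :=
  ∃ (G : Type) (_ : Group G) (n : ℕ) (A : Matrix (Fin n) (Fin n) (MonoidAlgebra ℤ G))
    (H : Type) (_ : NormedAddCommGroup H) (_ : InnerProductSpace ℂ H) (_ : CompleteSpace H)
    (b : HilbertBasis (Fin n × G) ℂ H) (T : H →L[ℂ] H),
    Group.FG G ∧ 1 ≤ n ∧ IsUnit (A.map (MonoidAlgebra.mapRingHom G (Int.castRingHom ℚ))) ∧
    Crest.AlgebraR.GroupRingDet.IsRegularRepOperator b A T ∧
    Crest.AlgebraR.GroupRingDet.logDet b T < 0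

/-- multiplication by a unipotent matrix with zero diagonal -/
def Elem {G ι : Type} [Group G] [Fintype ι] (X Y : Matrix ι ι (MonoidAlgebra ℚ G)) : Prop :=
  ∃ N : Matrix ι ι (MonoidAlgebra ℚ G), N * N = 0 ∧ (∀ i, N i i = 0) ∧
    (Y = (1 + N) * X ∨ Y = X * (1 + N))

/-- an integral matrix elementarily equivalent to an invertible one of small `ℓ²` norm -/
def SmallMat (G : Type) [Group G] : Prop :=
  ∃ (ι : Type) (_ : Fintype ι) (_ : Nonempty ι) (A : Matrix ι ι (MonoidAlgebra ℤ G))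
    (X : Matrix ι ι (MonoidAlgebra ℚ G)), IsUnit X ∧
    Relation.ReflTransGen Elem X (A.map (MonoidAlgebra.mapRingHom G (Int.castRingHom ℚ))) ∧
    ∑ i, ∑ j, ∑ g ∈ (X i j).coeff.support, (X i j).coeff g ^ 2 < (Fintype.card ι : ℚ)

def WreathStmt : Prop :=
  ∀ (G : Type) [Group G], Group.FG G →
    (∃ a b c : MonoidAlgebra (ZMod 2) G, a * b = 1 ∧ a * c = 0 ∧ c ≠ 0) →
    ∃ (G' : Type) (_ : Group G'), Group.FG G' ∧ SmallMat G'

def FKStmt : Prop := ∀ (G : Type) [Group G], Group.FG G → SmallMat G → DetGoal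

end Crest.Agent.R177
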